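import Vale.Agent.P148.R2.H532.Two

/-!
# P148, row N4: energy of the part of a class off a two sided exploration

The strand of `d` is explored `t` steps forward and `s` steps backward (stopping times).  For an arbitrary
class (chosen as a function of all colours) the sum of the weight over the members at the unexplored times
`t, .., L - s - 1` has second moment at most `2 * sum |Theta|^2`.  No assumption on the weight on the
explored faces or on the faces which degenerate in the contraction is needed.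
-/

namespace Vale.Agent.P148.R2.H923

open Function Vale.Agent.P148.R2.H258 Vale.Agent.P148.R2.H258.Tri Vale.Agent.P148.R2.H838
  Vale.Agent.P148.R2.H871 Vale.Agent.P148.R2.H203 Vale.Agent.P148.R2.H532

variable {V D : Type*} {T : Tri V D} {σ : V → Bool} {d : D} {t s : ℕ}

/-- Two members of a class separate the sources in between from all the others. -/
theorem rel_sep [Finite D] {n n' : ℕ} (hnn : n ≤ n') (_hn' : n' < per T σ d)
    (hr : T.Rel σ ((T.st σ)^[n] d) ((T.st σ)^[n'] d)) {i j : ℕ} (h1 : n < i) (h2 : i ≤ n')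
    (h3 : n' < j) (h4 : j ≤ n + per T σ d) :
    sa T σ d i ≠ sa T σ d j := by
  have hit : ∀ k, (T.st σ)^[k] ((T.st σ)^[n] d) = (T.st σ)^[n + k] d := by
    intro k; rw [← iterate_add_apply, add_comm]
  have hper : minimalPeriod (T.st σ) ((T.st σ)^[n] d) = per T σ d := T.period_iter σ d n
  have e1 : (T.st σ)^[n'] d = (T.st σ)^[n' - n] ((T.st σ)^[n] d) := by
    rw [hit]; congr 1; omega
  rw [e1] at hr
  have hd := T.rel_pos (by rw [hper]; omega) hr
  have := hd (i - n) (j - n) (by omega) (by omega) (by omega) (by rw [hper]; omega)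
  rw [hit, hit, show n + (i - n) = i by omega, show n + (j - n) = j by omega] at this
  exact this

theorem mem_HS3_iff [Finite D] (hs : s ≤ per T σ d) {v : V} :
    v ∈ HS3 T σ d t s true ↔ ∃ k, (k ≤ t ∨ (per T σ d ≤ k + s ∧ k ≤ per T σ d)) ∧
      sa T σ d k = v := by
  have hback : ∀ i ≤ per T σ d, T.tgt ((T.st σ)^[i] (T.rev d)) = sa T σ d (per T σ d - i) := by
    intro i hi
    have := back_iter T σ d hi
    unfold sa
    rw [this, T.src_rev]
  constructor
  · rintro (⟨i, hi, h⟩ | ⟨i, hi, h⟩)
    · exact ⟨i, Or.inl hi, h⟩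
    · rw [hback i (by omega)] at h
      exact ⟨per T σ d - i, Or.inr ⟨by omega, by omega⟩, h⟩
  · rintro ⟨k, h1 | ⟨h1, h2⟩, h3⟩
    · exact Or.inl ⟨k, h1, h3⟩
    · refine Or.inr ⟨per T σ d - k, by omega, ?_⟩
      rw [hback _ (by omega), show per T σ d - (per T σ d - k) = k by omega]
      exact h3

/-- Sources strictly between two unexplored members are not explored. -/
theorem not_seen [Finite D] {n n' : ℕ} (hn : t ≤ n) (hnn : n ≤ n') (hn' : n' + s < per T σ d)
    (hr : T.Rel σ ((T.st σ)^[n] d) ((T.st σ)^[n'] d)) {i : ℕ} (h1 : n < i) (h2 : i ≤ n') :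
    T.src ((T.st σ)^[i] d) ∉ HS3 T σ d t s true := by
  rw [mem_HS3_iff (by omega)]
  rintro ⟨k, hk | ⟨hk, hk'⟩, h3⟩
  · refine rel_sep hnn (by omega) hr h1 h2 (j := k + per T σ d) (by omega) (by omega) ?_
    rw [sa_add_per]
    exact h3.symm
  · exact rel_sep hnn (by omega) hr h1 h2 (j := k) (by omega) (by omega) h3.symm

theorem col_true {v : V} (hv : v ∈ HS3 T σ d t s true) : σ v = σ (T.src d) := by
  rcases hv with h | h
  · exact col_HB h
  · rw [col_HW h, T.tgt_rev]

theorem col_false {v : V} (hv : v ∈ HS3 T σ d t s false) : σ v = σ (T.tgt d) := by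
  rcases hv with h | h
  · exact col_HW h
  · rw [col_HB h, T.src_rev]


/-- Members at unexplored times are in one class of the explored domain. -/
theorem rel_two [Finite D] (hb : T.Bi σ d) {n n' : ℕ} (hn : t ≤ n) (hnn : n ≤ n')
    (hn' : n' + s < per T σ d) (hr : T.Rel σ ((T.st σ)^[n] d) ((T.st σ)^[n'] d)) :
    (TE2 T σ d hb t s).Rel σ ((T.st σ)^[n] d) ((T.st σ)^[n'] d) := by
  have hc := comp_col_eq2 (t := t) (s := s) hb (σ' := σ) (fun _ _ => rfl) (fun _ _ => rfl)
  have hit : ∀ k, (T.st σ)^[k] ((T.st σ)^[n] d) = (T.st σ)^[n + k] d := by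
    intro k; rw [← iterate_add_apply, add_comm]
  have hper : minimalPeriod (T.st σ) ((T.st σ)^[n] d) = per T σ d := T.period_iter σ d n
  have e1 : (T.st σ)^[n'] d = (T.st σ)^[n' - n] ((T.st σ)^[n] d) := by
    rw [hit]; congr 1; omega
  have key := @rel_tmap_of_rel V D T V (col (HS3 T σ d t s) (rt2 T d)) (coll_HS3 hb t s).fib σ _
    ((T.st σ)^[n] d) (n' - n)
  rw [hc] at key
  rw [e1]
  refine key ?_ (by rw [hper]; omega) ?_
  · rw [← e1]; exact hr
  · intro i j h1 h2 h3 h4 h5
    rw [hit, hit] at h5 ⊢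
    rcases (coll_HS3 hb t s).eq_or h5 with h6 | ⟨b, h6, -⟩
    · exact h6
    exfalso
    cases b with
    | true => exact not_seen hn hnn hn' hr (i := n + i) (by omega) (by omega) h6
    | false =>
      have h7 := col_false h6
      rw [T.col_src_iter σ d] at h7
      exact hb h7

/-- A face at an unexplored member is good in the explored domain unless both its black corners are
explored. -/
theorem good_two [Finite D] (hb : T.Bi σ d) {e : D} (hm : T.Mi σ e) (hg : T.Good e)
    (hc : σ (T.src e) = σ (T.src d))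
    (h : T.src e ∉ HS3 T σ d t s true ∨ T.apex e ∉ HS3 T σ d t s true) :
    (TE2 T σ d hb t s).Good e := by
  have hcol := comp_col_eq2 (t := t) (s := s) hb (σ' := σ) (fun _ _ => rfl) (fun _ _ => rfl)
  have hne : ∀ u v : V, σ u ≠ σ v →
      col (HS3 T σ d t s) (rt2 T d) u ≠ col (HS3 T σ d t s) (rt2 T d) v := by
    intro u v huv h1
    apply huv
    have h2 := congrFun hcol u
    have h3 := congrFun hcol v
    rw [comp_apply] at h2 h3
    rw [← h2, ← h3, h1]
  refine ⟨?_, ?_, ?_⟩
  · exact hne _ _ hm.1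
  · have h2 : σ (T.tgt e) ≠ σ (T.apex e) := by
      rw [hm.2]
      exact hm.1.symm
    exact hne _ _ h2
  · intro h1
    rcases (coll_HS3 hb t s).eq_or h1 with h2 | ⟨b, h2, h3⟩
    · exact hg.2.2 h2
    cases b with
    | true =>
      rcases h with h | h
      · exact h h3
      · exact h h2
    | false =>
      have h4 := col_false h3
      rw [hc] at h4
      exact hb h4

/-- Explored members are not good in the explored domain. -/
theorem not_good [Finite D] (hb : T.Bi σ d) {m : ℕ} (hm : T.Mi σ ((T.st σ)^[m] d))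
    (hs : s ≤ per T σ d)
    (h : m < t ∨ (per T σ d ≤ m + s ∧ m < per T σ d)) :
    ¬ (TE2 T σ d hb t s).Good ((T.st σ)^[m] d) := by
  have h1 : T.src ((T.st σ)^[m] d) ∈ HS3 T σ d t s true := by
    rw [mem_HS3_iff hs]
    exact ⟨m, by omega, rfl⟩
  have h2 : T.apex ((T.st σ)^[m] d) ∈ HS3 T σ d t s true := by
    rw [mem_HS3_iff hs]
    refine ⟨m + 1, by omega, ?_⟩
    exact sa_succ_mi T hm
  intro hg
  apply hg.2.2
  change col (HS3 T σ d t s) (rt2 T d) (T.apex ((T.st σ)^[m] d)) =
    col (HS3 T σ d t s) (rt2 T d) (T.src ((T.st σ)^[m] d))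
  rw [(coll_HS3 hb t s).col_mem h1, (coll_HS3 hb t s).col_mem h2]

open Classical in
/-- The members of the class of `c` on the strand of `d` at the times `u, .., v - 1`. -/
noncomputable def win (T : Tri V D) (σ : V → Bool) (d c : D) (u v : ℕ) (Θ : D → ℂ) : ℂ :=
  ∑ n ∈ Finset.Ico u v, if T.Rel σ c ((T.st σ)^[n] d) then Θ ((T.st σ)^[n] d) else 0

/-- **The unexplored part of a class is a class value of the explored domain, or a single term.** -/
theorem win_le [Fintype D] (hb : T.Bi σ d) (c : D) {Θ : D → ℂ} (hg : ∀ e, ¬ T.Good e → Θ e = 0) :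
    ‖win T σ d c t (per T σ d - s) Θ‖ ^ 2 ≤
      tot (TE2 T σ d hb t s) σ (rs (TE2 T σ d hb t s).Good Θ) + ∑ e, ‖Θ e‖ ^ 2 := by
  classical
  set L := per T σ d with hL
  set T2 := TE2 T σ d hb t s with hT2
  set S : Finset ℕ := (Finset.Ico t (L - s)).filter fun n => T.Rel σ c ((T.st σ)^[n] d) with hS
  have hL0 : 0 < L := per_pos T σ d
  have hmemS : ∀ n, n ∈ S ↔ (t ≤ n ∧ n < L - s) ∧ T.Rel σ c ((T.st σ)^[n] d) := by
    intro n; rw [hS, Finset.mem_filter, Finset.mem_Ico]
  have hW : win T σ d c t (L - s) Θ = ∑ n ∈ S, Θ ((T.st σ)^[n] d) := by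
    unfold win
    rw [hS, Finset.sum_filter]
  have hrel : ∀ n ∈ S, ∀ n' ∈ S, T.Rel σ ((T.st σ)^[n] d) ((T.st σ)^[n'] d) := by
    intro n hn n' hn'
    exact T.rel_trans (T.rel_symm ((hmemS n).1 hn).2) ((hmemS n').1 hn').2
  have htot := tot_nonneg T2 σ (rs T2.Good Θ)
  rw [hW]
  by_cases hcard : S.card ≤ 1
  · rcases Finset.card_le_one_iff_subset_singleton.1 hcard with ⟨n, hn⟩
    have h1 : ‖∑ n ∈ S, Θ ((T.st σ)^[n] d)‖ ^ 2 ≤ ∑ e, ‖Θ e‖ ^ 2 := by
      rcases Finset.subset_singleton_iff.1 hn with h | h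
      · rw [h]; simp only [Finset.sum_empty, norm_zero]
        have : (0 : ℝ) ≤ ∑ e, ‖Θ e‖ ^ 2 := Finset.sum_nonneg fun e _ => by positivity
        simpa using this
      · rw [h, Finset.sum_singleton]
        exact Finset.single_le_sum (f := fun e => ‖Θ e‖ ^ 2) (fun e _ => by positivity)
          (Finset.mem_univ _)
    linarith
  · push Not at hcard
    have hne : S.Nonempty := Finset.card_pos.1 (by omega)
    set n1 := S.min' hne with hn1
    have hn1S : n1 ∈ S := S.min'_mem hne
    have hmin : ∀ n ∈ S, n1 ≤ n := fun n hn => S.min'_le n hn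
    have hr1 := (hmemS n1).1 hn1S
    -- every member of the window is good
    have hgood : ∀ n ∈ S, T.Good ((T.st σ)^[n] d) → T2.Good ((T.st σ)^[n] d) := by
      intro n hn hgn
      have h1 := (hmemS n).1 hn
      have hmi : T.Mi σ ((T.st σ)^[n] d) := h1.2.2.1
      have hcn : σ (T.src ((T.st σ)^[n] d)) = σ (T.src d) := T.col_src_iter σ d n
      obtain ⟨m, hmS, hmn⟩ : ∃ m ∈ S, m ≠ n := by
        obtain ⟨a, ha, b, hb', hab⟩ := Finset.one_lt_card.1 hcard
        by_cases h : a = n
        · exact ⟨b, hb', fun hh => hab (h.trans hh.symm)⟩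
        · exact ⟨a, ha, h⟩
      have h2 := (hmemS m).1 hmS
      rcases lt_or_gt_of_ne hmn with h3 | h3
      · apply good_two hb hmi hgn hcn (Or.inl _)
        exact not_seen (n := m) (n' := n) h2.1.1 h3.le (by omega) (hrel m hmS n hn) h3 le_rfl
      · apply good_two hb hmi hgn hcn (Or.inr _)
        have h4 := not_seen (t := t) (s := s) (n := n) (n' := m) h1.1.1 h3.le (by omega)
          (hrel n hn m hmS) (i := n + 1) (by omega) (by omega)
        have h5 : T.src ((T.st σ)^[n + 1] d) = T.apex ((T.st σ)^[n] d) := sa_succ_mi T hmi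
        rw [h5] at h4
        exact h4
    have hinj : ∀ n ∈ S, ∀ n' ∈ S, (T.st σ)^[n] d = (T.st σ)^[n'] d → n = n' := by
      intro n hn n' hn' h
      have h1 := (hmemS n).1 hn
      have h2 := (hmemS n').1 hn'
      exact (iterate_eq_iterate_iff_of_lt_minimalPeriod (f := T.st σ) (x := d)
        (show n < L by omega) (show n' < L by omega)).1 h
    have hcls : ∑ n ∈ S, Θ ((T.st σ)^[n] d) = T2.cls σ ((T.st σ)^[n1] d) (rs T2.Good Θ) := by
      have e1 : ∑ n ∈ S, Θ ((T.st σ)^[n] d) =
          ∑ e ∈ S.image (fun n => (T.st σ)^[n] d), Θ e :=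
        (Finset.sum_image (fun n hn n' hn' h => hinj n hn n' hn' h)).symm
      rw [e1]
      unfold Tri.cls
      rw [← Finset.sum_filter]
      apply Finset.sum_subset_zero_on_sdiff
      · intro e he
        rw [Finset.mem_image] at he
        obtain ⟨n, hn, rfl⟩ := he
        rw [Finset.mem_filter]
        refine ⟨Finset.mem_univ _, ?_⟩
        have h1 := (hmemS n).1 hn
        exact T2.rel_symm (rel_two hb hr1.1.1 (hmin n hn) (by omega) (hrel _ hn1S _ hn))
      · intro e he
        rw [Finset.mem_sdiff, Finset.mem_filter] at he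
        obtain ⟨⟨-, he1⟩, he2⟩ := he
        have hc := comp_col_eq2 (t := t) (s := s) hb (σ' := σ) (fun _ _ => rfl) (fun _ _ => rfl)
        have h3 := tmap_rel he1
        rw [hc] at h3
        have h4 := T.rel_symm h3
        have h5 : T.Rel σ c e := T.rel_trans hr1.2 h4
        obtain ⟨-, hmi, k, hk, hke, -⟩ := h4
        have hper : minimalPeriod (T.st σ) ((T.st σ)^[n1] d) = L := T.period_iter σ d n1
        rw [hper] at hk
        obtain ⟨m, hmL, hme⟩ : ∃ m, m < L ∧ (T.st σ)^[m] d = e := by
          rw [← iterate_add_apply] at hke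
          have hn1L : n1 < L := by omega
          rcases lt_or_ge (k + n1) L with h | h
          · exact ⟨k + n1, h, hke⟩
          · refine ⟨k + n1 - L, by omega, ?_⟩
            rw [← hke, show k + n1 = k + n1 - L + L by omega, iterate_add_apply,
              show k + n1 - L + L - L = k + n1 - L by omega]
            have : (T.st σ)^[L] d = d := iterate_minimalPeriod
            rw [this]
        have h6 : ¬ (t ≤ m ∧ m < L - s) := by
          intro h
          apply he2
          rw [Finset.mem_image]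
          refine ⟨m, ?_, hme⟩
          rw [hmemS]
          exact ⟨h, by rw [hme]; exact h5⟩
        have h7 : ¬ T2.Good e := by
          rw [← hme]
          apply not_good hb (by rw [hme]; exact hmi) (by omega)
          omega
        unfold rs
        rw [if_neg h7]
      · intro e he
        rw [Finset.mem_image] at he
        obtain ⟨n, hn, rfl⟩ := he
        unfold rs
        split_ifs with h
        · rfl
        · exact hg _ (fun h' => h (hgood n hn h'))
    rw [hcls]
    have h1 := cls_sq_le T2 σ ((T.st σ)^[n1] d) (rs T2.Good Θ)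
    have h2 : (0 : ℝ) ≤ ∑ e, ‖Θ e‖ ^ 2 := Finset.sum_nonneg fun e _ => by positivity
    linarith

end Vale.Agent.P148.R2.H923
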