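import Vale.Agent.P148.R2.H923.M1

/-!
# P148, row N4: second moments at stopping times
-/

namespace Vale.Agent.P148.R2.H923

open Function Vale.Agent.P148.R2.H258 Vale.Agent.P148.R2.H258.Tri Vale.Agent.P148.R2.H838
  Vale.Agent.P148.R2.H871 Vale.Agent.P148.R2.H203 Vale.Agent.P148.R2.H532

variable {V D : Type*} {T : Tri V D} {σ : V → Bool} {d : D} {t s : ℕ}

theorem good_nxt_iff (d : D) : T.Good (T.nxt d) ↔ T.Good d := by
  constructor
  · intro h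
    have := h.nxt.nxt
    rwa [T.nxt3] at this
  · exact fun h => h.nxt

open Classical in
/-- **Second moment of the unexplored part of an arbitrary class.**  `t σ`, `s σ` are the numbers of steps
of the exploration of the strand of `d` (forward, backward), `E` is an event; all three are determined by the
explored colours.  The class `c σ` is arbitrary (any function of all colours). -/
theorem sum_win_le [Fintype V] [Fintype D] (hP : T.Planar) {τ : ℂ} (hτ : τ ^ 2 + τ + 1 = 0) {Θ : D → ℂ}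
    (hΘ : ∀ d, Θ (T.nxt d) = τ ^ 2 * Θ d) (hg : ∀ e, ¬ T.Good e → Θ e = 0) (d : D)
    (t s : (V → Bool) → ℕ) (E : (V → Bool) → Prop)
    (hdet : ∀ σ σ' : V → Bool,
      (∀ v ∈ Old T σ d (t σ) ∪ Old T σ (T.rev d) (s σ), σ' v = σ v) →
      t σ' = t σ ∧ s σ' = s σ ∧ (E σ' ↔ E σ))
    (hE : ∀ σ, E σ → T.Bi σ d) (c : (V → Bool) → D) :
    ∑ σ : V → Bool, (if E σ then ‖win T σ d (c σ) (t σ) (per T σ d - s σ) Θ‖ ^ 2 else 0) ≤
      ∑ σ : V → Bool, (if E σ then 2 * ∑ e, ‖Θ e‖ ^ 2 else 0) := by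
  set A : (V → Bool) → Set V := fun σ => Old T σ d (t σ) ∪ Old T σ (T.rev d) (s σ) with hA
  have hstop : IsStop A := by
    intro σ σ' h
    obtain ⟨h1, h2, -⟩ := hdet σ σ' h
    change Old T σ' d (t σ') ∪ Old T σ' (T.rev d) (s σ') = _
    rw [h1, h2, old_congr T (fun v hv => h v (Or.inl hv)), old_congr T (fun v hv => h v (Or.inr hv))]
  apply sum_stop_le hstop
  intro σ₀
  by_cases hE0 : E σ₀
  · rw [if_pos hE0]
    set T2 := TE2 T σ₀ d (hE σ₀ hE0) (t σ₀) (s σ₀) with hT2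
    have hrot : ∀ e, rs T2.Good Θ (T.nxt e) = τ ^ 2 * rs T2.Good Θ e := by
      intro e
      unfold rs
      have h1 : T2.Good (T.nxt e) ↔ T2.Good e := good_nxt_iff (T := T2) e
      by_cases h : T2.Good e
      · rw [if_pos h, if_pos (h1.2 h), hΘ]
      · rw [if_neg h, if_neg (fun h' => h (h1.1 h')), mul_zero]
    have hrg : ∀ e, ¬ T2.Good e → rs T2.Good Θ e = 0 := by
      intro e he
      unfold rs
      rw [if_neg he]
    have hbd := cond_TE2 (s := s σ₀) (t := t σ₀) hP hτ hrot (hE σ₀ hE0) hrg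
    have hrs : ∑ e, ‖rs T2.Good Θ e‖ ^ 2 ≤ ∑ e, ‖Θ e‖ ^ 2 := by
      apply Finset.sum_le_sum
      intro e _
      unfold rs
      split_ifs
      · exact le_rfl
      · simp
    have hpt : ∀ τ' : V → Bool, (if E (mix (A σ₀) σ₀ τ') then
        ‖win T (mix (A σ₀) σ₀ τ') d (c (mix (A σ₀) σ₀ τ')) (t (mix (A σ₀) σ₀ τ'))
          (per T (mix (A σ₀) σ₀ τ') d - s (mix (A σ₀) σ₀ τ')) Θ‖ ^ 2 else 0) ≤
        tot T2 (mix (A σ₀) σ₀ τ') (rs T2.Good Θ) + ∑ e, ‖Θ e‖ ^ 2 := by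
      intro τ'
      have hag : ∀ v ∈ A σ₀, mix (A σ₀) σ₀ τ' v = σ₀ v := fun v hv => mix_mem hv
      obtain ⟨h1, h2, h3⟩ := hdet σ₀ _ hag
      have hE1 : E (mix (A σ₀) σ₀ τ') := h3.2 hE0
      rw [if_pos hE1, h1, h2]
      have e1 := TE2_congr (hb := hE σ₀ hE0) (hb' := hE _ hE1) (t := t σ₀) (s := s σ₀)
        (fun v hv => hag v (Or.inl hv)) (fun v hv => hag v (Or.inr hv))
      have h4 := win_le (t := t σ₀) (s := s σ₀) (hE _ hE1) (c (mix (A σ₀) σ₀ τ')) hg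
      rw [e1] at h4
      exact h4
    calc _ ≤ ∑ τ' : V → Bool, (tot T2 (mix (A σ₀) σ₀ τ') (rs T2.Good Θ) + ∑ e, ‖Θ e‖ ^ 2) :=
          Finset.sum_le_sum fun τ' _ => hpt τ'
      _ = ∑ τ' : V → Bool, tot T2 (mix (A σ₀) σ₀ τ') (rs T2.Good Θ) +
          2 ^ Fintype.card V * ∑ e, ‖Θ e‖ ^ 2 := by
          rw [Finset.sum_add_distrib, Finset.sum_const, Finset.card_univ, nsmul_eq_mul, card_col]
      _ ≤ 2 ^ Fintype.card V * ∑ e, ‖Θ e‖ ^ 2 + 2 ^ Fintype.card V * ∑ e, ‖Θ e‖ ^ 2 := by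
          refine add_le_add (hbd.trans ?_) le_rfl
          exact mul_le_mul_of_nonneg_left hrs (by positivity)
      _ = _ := by ring
  · rw [if_neg hE0, mul_zero]
    apply le_of_eq
    apply Finset.sum_eq_zero
    intro τ' _
    have hag : ∀ v ∈ A σ₀, mix (A σ₀) σ₀ τ' v = σ₀ v := fun v hv => mix_mem hv
    obtain ⟨-, -, h3⟩ := hdet σ₀ _ hag
    rw [if_neg (fun h => hE0 (h3.1 h))]

theorem win_sub {c : D} {u v w : ℕ} (h1 : u ≤ v) (h2 : v ≤ w) (Θ : D → ℂ) :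
    win T σ d c u v Θ = win T σ d c u w Θ - win T σ d c v w Θ := by
  unfold win
  rw [← Finset.sum_Ico_consecutive _ h1 h2, add_sub_cancel_right]

open Classical in
/-- **Second moment of the part of a class between two stopping times.** -/
theorem sum_between_le [Fintype V] [Fintype D] (hP : T.Planar) {τ : ℂ} (hτ : τ ^ 2 + τ + 1 = 0)
    {Θ : D → ℂ} (hΘ : ∀ d, Θ (T.nxt d) = τ ^ 2 * Θ d) (hg : ∀ e, ¬ T.Good e → Θ e = 0) (d : D)
    (t t' : (V → Bool) → ℕ)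
    (hdet : ∀ σ σ' : V → Bool, (∀ v ∈ Old T σ d (t σ), σ' v = σ v) → t σ' = t σ)
    (hdet' : ∀ σ σ' : V → Bool, (∀ v ∈ Old T σ d (t' σ), σ' v = σ v) → t' σ' = t' σ)
    (c : (V → Bool) → D) (G : (V → Bool) → Prop)
    (hG : ∀ σ, G σ → T.Bi σ d ∧ t σ ≤ t' σ ∧ t' σ ≤ per T σ d) :
    ∑ σ : V → Bool, (if G σ then ‖win T σ d (c σ) (t σ) (t' σ) Θ‖ ^ 2 else 0) ≤
      8 * (2 ^ Fintype.card V * ∑ e, ‖Θ e‖ ^ 2) := by
  have hbi : ∀ (u : (V → Bool) → ℕ) (σ σ' : V → Bool),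
      (∀ v ∈ Old T σ d (u σ) ∪ Old T σ (T.rev d) 0, σ' v = σ v) → (T.Bi σ' d ↔ T.Bi σ d) := by
    intro u σ σ' h
    have h1 := h (T.src d) (Or.inl ⟨0, by omega, Or.inl rfl⟩)
    have h2 := h (T.tgt d) (Or.inl ⟨0, by omega, Or.inr rfl⟩)
    unfold Tri.Bi
    rw [h1, h2]
  have key : ∀ u : (V → Bool) → ℕ,
      (∀ σ σ' : V → Bool, (∀ v ∈ Old T σ d (u σ), σ' v = σ v) → u σ' = u σ) →
      ∑ σ : V → Bool, (if T.Bi σ d then ‖win T σ d (c σ) (u σ) (per T σ d) Θ‖ ^ 2 else 0) ≤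
        2 * (2 ^ Fintype.card V * ∑ e, ‖Θ e‖ ^ 2) := by
    intro u hu
    have h1 := sum_win_le hP hτ hΘ hg d u (fun _ => 0) (fun σ => T.Bi σ d)
      (fun σ σ' h => ⟨hu σ σ' (fun v hv => h v (Or.inl hv)), rfl, hbi u σ σ' h⟩) (fun σ h => h) c
    simp only [Nat.sub_zero] at h1
    refine h1.trans ?_
    calc ∑ σ : V → Bool, (if T.Bi σ d then 2 * ∑ e, ‖Θ e‖ ^ 2 else 0)
        ≤ ∑ σ : V → Bool, 2 * ∑ e, ‖Θ e‖ ^ 2 := by
          apply Finset.sum_le_sum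
          intro σ _
          split_ifs
          · exact le_rfl
          · have : (0 : ℝ) ≤ ∑ e, ‖Θ e‖ ^ 2 := Finset.sum_nonneg fun e _ => by positivity
            linarith
      _ = _ := by
          rw [Finset.sum_const, Finset.card_univ, nsmul_eq_mul, card_col]; ring
  have h1 := key t hdet
  have h2 := key t' hdet'
  calc ∑ σ : V → Bool, (if G σ then ‖win T σ d (c σ) (t σ) (t' σ) Θ‖ ^ 2 else 0)
      ≤ ∑ σ : V → Bool, (2 * (if T.Bi σ d then ‖win T σ d (c σ) (t σ) (per T σ d) Θ‖ ^ 2 else 0) +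
        2 * (if T.Bi σ d then ‖win T σ d (c σ) (t' σ) (per T σ d) Θ‖ ^ 2 else 0)) := by
        apply Finset.sum_le_sum
        intro σ _
        by_cases h : G σ
        · obtain ⟨g1, g2, g3⟩ := hG σ h
          rw [if_pos h, if_pos g1, if_pos g1, win_sub g2 g3, sub_eq_add_neg]
          refine (sq_add_le _ _).trans ?_
          rw [norm_neg]
        · rw [if_neg h]
          positivity
    _ = 2 * ∑ σ : V → Bool, (if T.Bi σ d then ‖win T σ d (c σ) (t σ) (per T σ d) Θ‖ ^ 2 else 0) +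
        2 * ∑ σ : V → Bool, (if T.Bi σ d then ‖win T σ d (c σ) (t' σ) (per T σ d) Θ‖ ^ 2 else 0) := by
        rw [Finset.sum_add_distrib, Finset.mul_sum, Finset.mul_sum]
    _ ≤ _ := by linarith

end Vale.Agent.P148.R2.H923
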